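import Vale.Agent.P126.NearLinear

/-!
Duality of metric entropy up to an arbitrarily small power of the entropy, at a fixed scale.
-/

namespace Vale.Agent.Results.P126.NearLinearDuality

open Pointwise Vale.Agent.P126

theorem result :
    ∃ C : ℝ, 1 ≤ C ∧ ∀ n : ℕ, 1 ≤ n → ∀ K L : Set (Euc n),
      IsSymmConvexBody K → IsSymmConvexBody L → ∀ k : ℕ, 1 ≤ k →
        Real.log (coveringNumber K L)
            ≤ C * (k : ℝ) ^ 3
              * Real.log (coveringNumber (polarBody L) ((C * (k : ℝ))⁻¹ • polarBody K))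
              * (1 + Real.log (coveringNumber (polarBody L) ((C * (k : ℝ))⁻¹ • polarBody K)))
                  ^ ((k : ℝ)⁻¹) ∧
        Real.log (coveringNumber (polarBody L) ((C * (k : ℝ)) • polarBody K))
            ≤ C * (k : ℝ) ^ 3 * Real.log (coveringNumber K L)
              * (1 + Real.log (coveringNumber K L)) ^ ((k : ℝ)⁻¹) := by
  refine ⟨5308416, by norm_num, fun n _ K L hK hL k hk => ⟨log_coveringNumber_le hK hL hk, ?_⟩⟩
  have hk0 : (0 : ℝ) < k := by exact_mod_cast hk
  have hc : (0 : ℝ) < 5308416 * k := by positivity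
  refine (log_coveringNumber_le hL.polar (hK.polar.smul hc) hk).trans ?_
  rw [polarBody_smul _ hc, hK.polar_polar, hL.polar_polar]
  have hle := coveringNumber_smul_le hK.1 hL.zero_mem_interior ((5308416 * (k : ℝ))⁻¹)
  set N₁ := coveringNumber ((5308416 * (k : ℝ))⁻¹ • K) ((5308416 * (k : ℝ))⁻¹ • L)
  set N₀ := coveringNumber K L
  have h0 : 0 ≤ Real.log (N₁ : ℝ) := Real.log_natCast_nonneg _
  have hlog : Real.log (N₁ : ℝ) ≤ Real.log (N₀ : ℝ) := by
    rcases Nat.eq_zero_or_pos N₁ with h | h
    · rw [h, Nat.cast_zero, Real.log_zero]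
      exact Real.log_natCast_nonneg _
    · exact Real.log_le_log (by exact_mod_cast h) (by exact_mod_cast hle)
  have hpow : (1 + Real.log (N₁ : ℝ)) ^ ((k : ℝ)⁻¹) ≤ (1 + Real.log (N₀ : ℝ)) ^ ((k : ℝ)⁻¹) :=
    Real.rpow_le_rpow (by linarith) (by linarith) (by positivity)
  exact mul_le_mul (mul_le_mul_of_nonneg_left hlog (by positivity)) hpow
    (Real.rpow_nonneg (by linarith) _) (mul_nonneg (by positivity) (Real.log_natCast_nonneg _))

end Vale.Agent.Results.P126.NearLinearDuality
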