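import Vale.Agent.P126.Sharp.Levels

/-!
Duality of metric entropy with an absolute factor, up to a small power loss in the scale.
-/

namespace Vale.Agent.Results.P126.ScaleLossDuality

open Pointwise Vale.Agent.P126

theorem result :
    ∃ C : ℝ, 1 ≤ C ∧ ∀ n : ℕ, 1 ≤ n → ∀ K L : Set (Euc n),
      IsSymmConvexBody K → IsSymmConvexBody L → ∀ k : ℕ, 1 ≤ k →
        Real.log (coveringNumber K
            ((C * (k : ℝ) ^ 4
              * (1 + Real.log (coveringNumber (polarBody L) (polarBody K))) ^ ((k : ℝ)⁻¹)) • L))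
          ≤ C * (k : ℝ) * Real.log (coveringNumber (polarBody L) (polarBody K)) ∧
        Real.log (coveringNumber (polarBody L)
            ((C * (k : ℝ) ^ 4
              * (1 + Real.log (coveringNumber K L)) ^ ((k : ℝ)⁻¹)) • polarBody K))
          ≤ C * (k : ℝ) * Real.log (coveringNumber K L) := by
  refine ⟨402653184, by norm_num, fun n _ K L hK hL k hk => ⟨?_, ?_⟩⟩
  · refine (Sharp.log_coveringNumber_le hK hL hk le_rfl).trans ?_
    exact mul_le_mul_of_nonneg_right
      (mul_le_mul_of_nonneg_right (by norm_num) (Nat.cast_nonneg k)) (Real.log_natCast_nonneg _)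
  · have h := Sharp.log_coveringNumber_le hL.polar hK.polar hk
      (a := 402653184 * (k : ℝ) ^ 4 * (1 + Real.log (coveringNumber K L)) ^ ((k : ℝ)⁻¹))
      (by rw [hK.polar_polar, hL.polar_polar])
    rw [hK.polar_polar, hL.polar_polar] at h
    refine h.trans ?_
    exact mul_le_mul_of_nonneg_right
      (mul_le_mul_of_nonneg_right (by norm_num) (Nat.cast_nonneg k)) (Real.log_natCast_nonneg _)

end Vale.Agent.Results.P126.ScaleLossDuality
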